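import Vale.Agent.Lib.P343.Pump
import Vale.Agent.Lib.P343.Frob

/-!
# P343: complementing two-way nondeterministic automata costs at least quadratically many states

For every `n ≥ 2` and every alphabet with at least one letter there is a one-way
nondeterministic automaton with `n + 2` states (it accepts the words whose length is of the
form `x n + y (n + 1)`) such that every two-way nondeterministic automaton recognizing the
complement has at least `n² - n - 1` states.
-/

namespace Vale.Agent.Results.P343.ComplementQuadraticLowerBound

open Vale.Agent.Lib.P343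

/-- A quadratic lower bound for Q1. -/
theorem result (α : Type) [Nonempty α] (n : ℕ) (hn : 2 ≤ n) :
    ∃ A : TwoNFA α, A.OneWay ∧ A.size = n + 2 ∧
      (∀ w : List α, A.Accepts w ↔ ∃ x y : ℕ, w.length = x * n + y * (n + 1)) ∧
      ∀ B : TwoNFA α, B.lang = (A.lang)ᶜ → n ^ 2 ≤ B.size + n + 1 := by
  refine ⟨frob α n, frob_oneway n, frob_size n, frob_accepts (by omega), ?_⟩
  intro B hB
  by_contra hlt
  rw [not_le] at hlt
  obtain ⟨a⟩ := ‹Nonempty α›
  -- the word of length g = n² - n - 1
  obtain ⟨g, hg⟩ : ∃ g : ℕ, g + n + 1 = n ^ 2 := ⟨n ^ 2 - n - 1, by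
    have : n + 1 ≤ n ^ 2 := by nlinarith
    omega⟩
  have h1 : ¬ (frob α n).Accepts (List.replicate g a) := by
    rw [frob_accepts (by omega)]
    rintro ⟨x, y, hxy⟩
    rw [List.length_replicate] at hxy
    exact frob_gap hn x y (by omega)
  have h2 : B.Accepts (List.replicate g a) := by
    have : List.replicate g a ∈ B.lang := by rw [hB]; exact h1
    exact this
  have h3 : B.Accepts (List.replicate (g + B.size.factorial) a) :=
    accepts_pump B a (by omega) h2
  have h4 : (frob α n).Accepts (List.replicate (g + B.size.factorial) a) := by
    rw [frob_accepts (by omega)]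
    rw [List.length_replicate]
    have := Nat.factorial_pos B.size
    exact frob_large (by omega) (by omega)
  have h5 : List.replicate (g + B.size.factorial) a ∈ B.lang := h3
  rw [hB] at h5
  exact h5 h4

end Vale.Agent.Results.P343.ComplementQuadraticLowerBound
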